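import Vale.Agent.P305M.Defs
import Vale.Agent.P305Q.Dag

/-!
# One level of the engine: the interface between its static and its dynamic part

Items have names; `it z = (tail, head, length, gradient)`, `cs z` is the signed list of the
constituents. All ends are real vertices.
-/

namespace Vale.Agent.P305Y

open Vale.Agent.P305E Vale.Agent.P305C Vale.Agent.P305M Vale.Agent.P305Q

/-- A list of signed items. -/
abbrev SW : Type := List (ℕ × Bool)

/-- Where a signed item starts. -/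
def src (it : ℕ → RA) (c : ℕ × Bool) : ℕ := if c.2 then (it c.1).1 else (it c.1).2.1
/-- Where a signed item ends. -/
def dst (it : ℕ → RA) (c : ℕ × Bool) : ℕ := if c.2 then (it c.1).2.1 else (it c.1).1

/-- The list is a walk from `u` to `v`. -/
def Wlk (it : ℕ → RA) : ℕ → SW → ℕ → Prop
  | u, [], v => u = v
  | u, c :: l, v => src it c = u ∧ Wlk it (dst it c) l v

/-- The reversed walk. -/
def rev (w : SW) : SW := (w.map fun c => (c.1, !c.2)).reverse

/-- The length of a walk. -/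
def wlen (it : ℕ → RA) (w : SW) : ℕ := nsum (fun z => (it z).2.2.1) w
/-- The gradient of a walk. -/
def wg (it : ℕ → RA) (w : SW) : ℤ := ssum (fun z => (it z).2.2.2) w

/-- The gradient of `z` is the difference of the potentials up to `K` times the length. -/
def Con (it : ℕ → RA) (φ : ℕ → ℝ) (K : ℝ) (z : ℕ) : Prop :=
  |((it z).2.2.2 : ℝ) - (φ (it z).2.1 - φ (it z).1)| ≤ K * (it z).2.2.1

/-- The store: data, constituents, first free name. -/
abbrev Sto : Type := Arr RA × Arr SW × ℕ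

/-- A level: new items `P`, items `K` for the next level, for an item the emitted items, the
vertices to touch and the new items that contain it, for a vertex its clusters, for a cluster the
emitted items and the vertices to touch, and the candidate cycles. -/
abbrev Lvl : Type := (List ℕ × List ℕ) × (Arr (List ℕ) × Arr (List ℕ) × Arr (List ℕ)) ×
  (Arr (List ℕ) × Arr (List ℕ) × Arr (List ℕ)) × List SW

namespace Lvl
variable (L : Lvl)
/-- The new items. -/
abbrev P : List ℕ := L.1.1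
/-- The items for the next level. -/
abbrev K : List ℕ := L.1.2
/-- The items that are emitted when the item goes bad. -/
abbrev em (z : ℕ) : List ℕ := L.2.1.1.get z
/-- The vertices that are touched when the item goes bad. -/
abbrev tl (z : ℕ) : List ℕ := L.2.1.2.1.get z
/-- The new items that contain the item. -/
abbrev par (z : ℕ) : List ℕ := L.2.1.2.2.get z
/-- The clusters of a vertex. -/
abbrev cls (u : ℕ) : List ℕ := L.2.2.1.1.get u
/-- The items that are emitted when the cluster breaks. -/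
abbrev cem (C : ℕ) : List ℕ := L.2.2.1.2.1.get C
/-- The vertices that are touched when the cluster breaks. -/
abbrev ctl (C : ℕ) : List ℕ := L.2.2.1.2.2.get C
/-- The candidate cycles. -/
abbrev cand : List SW := L.2.2.2
end Lvl

/-- A trigger with the lists `em`, `tl` has been absorbed by the potentials `ψ l`. -/
def Abs (it : ℕ → RA) (bad : ℕ → Prop) (φ' : ℕ → ℝ) (ψ : ℕ → ℕ → ℝ) (K : ℝ)
    (em tl : List ℕ) : Prop :=
  ∃ l, (∀ z ∈ em, ¬ bad z → Con it (ψ l) K z) ∧ ∀ j ≤ l, ∀ y ∈ tl, ψ j y = φ' y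

/-- The potentials of the next level can be lifted. -/
def Sound (it : ℕ → RA) (G : List ℕ) (L : Lvl) (κ Γ : ℕ) : Prop :=
  ∀ (bad brk : ℕ → Prop) (φ' : ℕ → ℝ) (ψ : ℕ → ℕ → ℝ) (K : ℝ), (κ : ℝ) ≤ K →
    (∀ z ∈ G, bad z → (∀ C ∈ L.cls (it z).1, brk C) ∧ (∀ C ∈ L.cls (it z).2.1, brk C) ∧
      ∀ p ∈ L.par z, bad p) →
    (∀ z ∈ L.K, ¬ bad z → Con it φ' K z) →
    (∀ z, z ∈ G ∨ z ∈ L.P → bad z → Abs it bad φ' ψ K (L.em z) (L.tl z)) →
    (∀ C, brk C → Abs it bad φ' ψ K (L.cem C) (L.ctl C)) →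
    (∀ w ∈ L.cand, ∃ c ∈ w, bad c.1) →
    ∃ φ : ℕ → ℝ, (∀ z ∈ G, ¬ bad z → Con it φ (Γ * K) z) ∧
      ∀ u, (∀ C ∈ L.cls u, brk C) → φ u = φ' u

/-- The level `L` has been built on the items `G`; the store grew from `S` to `S'`. A new item has
at most `k` constituents, `γ` bounds the lists that are fed upwards, `p` the other lists. -/
structure LvlOK (S S' : Sto) (G : List ℕ) (L : Lvl) (κ k γ p : ℕ) : Prop where
  nx : S.2.2 ≤ S'.2.2
  old : ∀ z < S.2.2, S'.1.get z = S.1.get z ∧ S'.2.1.get z = S.2.1.get z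
  new : ∀ z, z ∈ L.P ↔ S.2.2 ≤ z ∧ z < S'.2.2
  nodup : L.P.Nodup
  cs : ∀ z ∈ L.P, (∀ c ∈ S'.2.1.get z, c.1 ∈ G ∧ z ∈ L.par c.1) ∧ S'.2.1.get z ≠ [] ∧
    (S'.2.1.get z).length ≤ k ∧
    Wlk S.1.get (S'.1.get z).1 (S'.2.1.get z) (S'.1.get z).2.1 ∧
    (S'.1.get z).2.2.1 = wlen S.1.get (S'.2.1.get z) ∧
    (S'.1.get z).2.2.2 = wg S.1.get (S'.2.1.get z)
  par : ∀ z, (L.par z).length ≤ γ ∧ ∀ y ∈ L.par z, y ∈ L.P
  K : ∀ z ∈ L.K, z ∈ G ∨ z ∈ L.P
  em : ∀ z, (L.em z).length ≤ p ∧ ∀ y ∈ L.em z, y ∈ G ∨ y ∈ L.P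
  cem : ∀ C, (L.cem C).length ≤ p ∧ ∀ y ∈ L.cem C, y ∈ G ∨ y ∈ L.P
  tl : ∀ z, (L.tl z).length ≤ γ
  ctl : ∀ C, (L.ctl C).length ≤ γ
  cls : ∀ u, (L.cls u).length ≤ γ
  cand : ∀ w ∈ L.cand, w ≠ [] ∧ w.length ≤ p ∧ (∀ c ∈ w, c.1 ∈ G ∨ c.1 ∈ L.P) ∧
    (∃ u, Wlk S'.1.get u w u) ∧ wg S'.1.get w + κ * wlen S'.1.get w ≤ 0
  sound : Sound S'.1.get G L κ γ

/-- The specification of the program that builds a level: input `(b, d, q, k, κ, S, G)`,
where `d` is the depth of the recursion in the router and `q ^ d ≥ 2 ^ b`. If `4 * |G| < k`, the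
level is the last one. -/
structure BuildOK (f : ℕ × ℕ × ℕ × ℕ × ℕ × Sto × List ℕ → M (Sto × Lvl)) (c : ℕ) : Prop where
  impl : Impl f
  spec : ∀ (B e b d q k κ : ℕ) (S : Sto) (G : List ℕ), G.Nodup → G.length ≤ 2 ^ b →
    (∀ z ∈ G, z < S.2.2 ∧ (S.1.get z).1 ≤ 2 ^ b ∧ (S.1.get z).2.1 ≤ 2 ^ b ∧
      1 ≤ (S.1.get z).2.2.1 ∧ (S.1.get z).2.2.1 ≤ 2 ^ b ∧ (S.1.get z).2.2.2.natAbs ≤ 2 ^ b) →
    S.2.2 ≤ 2 ^ b → κ ≤ 2 ^ b → 1 ≤ k → k ≤ 2 ^ b → 1 ≤ d → d ≤ b → (b + 2) ^ d ≤ 2 ^ b →
    2 ^ b ≤ q ^ d → q ≤ 2 ^ b → e ≤ b → 2 ^ (c * (b + 1)) ≤ B →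
    Vt e B (f (b, d, q, k, κ, S, G)) fun r t =>
      LvlOK S r.1 G r.2 κ k ((b + 2) ^ (c * d)) (((b + 2) * k) ^ (c * d)) ∧
      k * r.2.K.length ^ 2 ≤ ((b + 2) ^ (c * d) * G.length) ^ 2 ∧
      (4 * G.length < k → r.2.K = []) ∧
      t + r.2.P.length + r.2.cand.length ≤ q * ((b + 2) * k) ^ (c * d) * (G.length + 1)

/-- **The block BUILD.** -/
def BUILD : Prop := ∃ f c, BuildOK f c

/-! ### Walks -/

variable {it it' : ℕ → RA} {u v x : ℕ} {w w' : SW}

@[simp] theorem rev_nil : rev [] = [] := rfl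
@[simp] theorem rev_cons (c : ℕ × Bool) (w : SW) : rev (c :: w) = rev w ++ [(c.1, !c.2)] := by
  simp [rev]
@[simp] theorem rev_append (w w' : SW) : rev (w ++ w') = rev w' ++ rev w := by simp [rev]
@[simp] theorem length_rev (w : SW) : (rev w).length = w.length := by simp [rev]
theorem mem_rev {c : ℕ × Bool} : c ∈ rev w ↔ (c.1, !c.2) ∈ w := by
  simp only [rev, List.mem_reverse, List.mem_map]
  exact ⟨fun ⟨a, h, e⟩ => by subst e; simpa using h, fun h => ⟨_, h, by simp⟩⟩
@[simp] theorem src_not (z : ℕ) (b : Bool) : src it (z, !b) = dst it (z, b) := by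
  cases b <;> rfl
@[simp] theorem dst_not (z : ℕ) (b : Bool) : dst it (z, !b) = src it (z, b) := by
  cases b <;> rfl

theorem wlk_append : Wlk it u (w ++ w') v ↔ ∃ x, Wlk it u w x ∧ Wlk it x w' v := by
  induction w generalizing u with
  | nil => simp [Wlk]
  | cons c w ih => simp only [List.cons_append, Wlk, ih, and_assoc, exists_and_left]

theorem Wlk.append (h : Wlk it u w x) (h' : Wlk it x w' v) : Wlk it u (w ++ w') v :=
  wlk_append.2 ⟨x, h, h'⟩

theorem Wlk.rev (h : Wlk it u w v) : Wlk it v (rev w) u := by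
  induction w generalizing u with
  | nil => exact h.symm
  | cons c w ih =>
    rw [rev_cons]
    exact (ih h.2).append ⟨src_not _ _, (dst_not _ _).trans h.1⟩

theorem Wlk.unique (h : Wlk it u w v) (h' : Wlk it u w x) : v = x := by
  induction w generalizing u with
  | nil => exact h.symm.trans h'
  | cons c w ih => exact ih h.2 h'.2

theorem Wlk.congr (e : ∀ c ∈ w, it' c.1 = it c.1) (h : Wlk it u w v) : Wlk it' u w v := by
  induction w generalizing u with
  | nil => exact h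
  | cons c w ih =>
    have e1 := e c (by simp)
    refine ⟨by rw [← h.1]; simp only [src, e1], ?_⟩
    rw [show dst it' c = dst it c by simp only [dst, e1]]
    exact ih (fun c hc => e c (by simp [hc])) h.2

theorem Wlk.ends {p : ℕ → Prop} (h : Wlk it u w v) (hw : w ≠ [])
    (hp : ∀ c ∈ w, p (it c.1).1 ∧ p (it c.1).2.1) : p u ∧ p v := by
  induction w generalizing u with
  | nil => exact (hw rfl).elim
  | cons c w ih =>
    have a := hp c (by simp)
    refine ⟨by rw [← h.1, src]; split_ifs; exacts [a.1, a.2], ?_⟩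
    by_cases e : w = []
    · subst e
      rw [← show dst it c = v from h.2, dst]; split_ifs; exacts [a.2, a.1]
    · exact (ih h.2 e fun c hc => hp c (by simp [hc])).2

@[simp] theorem wlen_nil : wlen it [] = 0 := rfl
@[simp] theorem wlen_cons (c : ℕ × Bool) : wlen it (c :: w) = (it c.1).2.2.1 + wlen it w := by
  simp [wlen]
@[simp] theorem wlen_append : wlen it (w ++ w') = wlen it w + wlen it w' := by simp [wlen]
@[simp] theorem wlen_rev : wlen it (rev w) = wlen it w := by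
  induction w with
  | nil => rfl
  | cons c w ih => simp [ih, add_comm]
@[simp] theorem wg_nil : wg it [] = 0 := rfl
@[simp] theorem wg_cons (c : ℕ × Bool) : wg it (c :: w) = sg c.2 * (it c.1).2.2.2 + wg it w := by
  simp [wg]
@[simp] theorem wg_append : wg it (w ++ w') = wg it w + wg it w' := by simp [wg]
@[simp] theorem wg_rev : wg it (rev w) = -wg it w := by
  induction w with
  | nil => rfl
  | cons c w ih => simp [ih]

/-- Consistent items give consistent walks. -/
theorem Wlk.con {φ : ℕ → ℝ} {K : ℝ} (h : Wlk it u w v) (hc : ∀ c ∈ w, Con it φ K c.1) :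
    |(wg it w : ℝ) - (φ v - φ u)| ≤ K * wlen it w := by
  induction w generalizing u with
  | nil => simp [show u = v from h]
  | cons c w ih =>
    have a := ih h.2 fun c hc' => hc c (by simp [hc'])
    have b := hc c (by simp)
    obtain ⟨z, s⟩ := c
    rw [← h.1]
    rw [Con, abs_le] at b
    rw [abs_le] at a ⊢
    cases s <;> simp only [wg_cons, wlen_cons, src, dst, sg_true, sg_false, if_true, if_false,
      Bool.false_eq_true] at a b ⊢ <;> push_cast <;> constructor <;> linarith [a.1, a.2, b.1, b.2]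

end Vale.Agent.P305Y
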