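import Vale.Agent.P305Y.Dyn
import Vale.Agent.P305M.Core

/-!
# The dynamic blocks: events, reconstruction, search for a candidate
-/

namespace Vale.Agent.P305Y

open Vale.Agent.P305E Vale.Agent.P305C Vale.Agent.P305M Vale.Agent.P305Q Finset

/-- The store as plain functions. -/
def St.view (s : St) : GS :=
  ⟨s.nx, s.cs, s.re, fun z => (s.it z).1, fun z => (s.it z).2.1, fun z => (s.it z).2.2.1, s.dep,
    fun z => (s.it z).2.2.2, s.2.1.1.get⟩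

/-- The initial state. -/
def st0 : St := ((Arr.const (0, 0, 0, 0), Arr.const [], 0),
  (Arr.const false, Arr.const 0, Arr.const none), Arr.const (lvl0, [], Arr.const false, [], []))

/-- The valid real items are the arcs of `G`. -/
structure RI (s : St) (G : Gh) : Prop where
  real : ∀ z < s.nx, ¬ s.bad z → ∀ e, s.re z = some e → e ∈ G.al ∧ G.arc e = s.it z
  uniq : ∀ z < s.nx, ∀ z' < s.nx, ∀ e, ¬ s.bad z → ¬ s.bad z' → s.re z = some e →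
    s.re z' = some e → z = z'
  surj : ∀ e ∈ G.al, ∃ z < s.nx, ¬ s.bad z ∧ s.re z = some e

/-- A bound for the number of items that one event appends to `pend j`. -/
def evE (π : Par) (j : ℕ) : ℕ := 2 * π.p j * (π.γ + 2) ^ (3 * (j + 1))

/-- The time of an event. -/
def evT (π : Par) : ℕ := 40 * (π.Lm + 1) * evE π π.Lm

/-- What an event does to the levels. -/
structure EvRes (π : Par) (s s' : St) : Prop where
  si : SI π s' (π.Lm + 1)
  lv : ∀ j, s'.L j = s.L j ∧ s'.G j = s.G j ∧ s'.rem j = s.rem j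
  pend : ∀ j ≤ π.Lm, (s'.pend j).length ≤ (s.pend j).length + evE π j

/-- **The block EVENT**: `kill (Lm, s, z)` removes the real item `z` and returns the items that went
bad, `add (Lm, s, e, a)` creates a real item with the tag `e`. -/
def EVENT : Prop :=
  ∃ (kill : ℕ × St × ℕ → M (List ℕ × St)) (add : ℕ × St × ℕ × RA → M St), Impl kill ∧ Impl add ∧
    ∀ (c : Cx) (π : Par) (s : St), π.OK → SI π s (π.Lm + 1) → s.nx + π.Lm + 2 ≤ c.B →
      (∀ z < s.nx, ¬ s.bad z → s.re z ≠ none → Tri c (kill (π.Lm, s, z)) fun o t =>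
        EvRes π s o.2 ∧ o.2.1 = s.1 ∧ o.2.2.1.2 = s.2.1.2 ∧
        (∀ y, o.2.bad y ↔ s.bad y ∨ y ∈ o.1) ∧ z ∈ o.1 ∧ (∀ y ∈ o.1, s.re y = none ∨ y = z) ∧
        t + o.1.length ≤ evT π) ∧
      ∀ (e : ℕ) (a : RA), a.1 ≤ π.M 0 → a.2.1 ≤ π.M 0 → 1 ≤ a.2.2.1 → a.2.2.1 ≤ π.M 0 →
        a.2.2.2.natAbs ≤ π.M 0 → Tri c (add (π.Lm, s, e, a)) fun s' t =>
          EvRes π s s' ∧ s'.1 = (s.1.1.set s.nx a, s.1.2.1.set s.nx [], s.nx + 1) ∧
          s'.2.1 = (s.2.1.1, s.2.1.2.1.set s.nx 0, s.2.1.2.2.set s.nx (some e)) ∧ t ≤ evT π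

/-- The bound for the numbers at depth `j`. -/
def mM (k : ℕ → ℕ) (M : ℕ) : ℕ → ℕ
  | 0 => M
  | j + 1 => k j * mM k M j

/-- The parameters that belong to a program for one level with the constant `c`. -/
def parOf (c b d k kl κ Lm M : ℕ) : Par :=
  ⟨Lm, κ, (b + 2) ^ (c * d), fun j => if j < Lm then k else kl,
    fun j => ((b + 2) * if j < Lm then k else kl) ^ (c * d), mM (fun j => if j < Lm then k else kl) M⟩

/-- What a reconstruction of the levels from `l₀` on does; `D` lists the destroyed items. -/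
structure RbRes (π : Par) (l₀ : ℕ) (x cost : ℕ → ℕ) (s s' : St) (D : List ℕ) (t : ℕ) : Prop where
  si : SI π s' π.Lm
  nx : s.nx ≤ s'.nx
  old : ∀ z < s.nx, s'.it z = s.it z ∧ s'.cs z = s.cs z ∧ s'.dep z = s.dep z
  re : s'.re = s.re
  bad : ∀ y, s'.bad y ↔ s.bad y ∨ y ∈ D
  virt : ∀ y ∈ D, y < s.nx ∧ s.re y = none
  low : ∀ j < l₀, s'.2.2.get j = s.2.2.get j
  high : ∀ j ≤ π.Lm, l₀ ≤ j → s'.pend j = [] ∧ (s'.L j).K.length ≤ x j ∧
    (s'.L j).P.length + (s'.rem j).length ≤ cost j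
  time : t + D.length + s'.nx ≤ s.nx + 40 * ∑ j ∈ Icc l₀ π.Lm, cost j

/-- **The block REBUILD**: input `((b, d, q, k, kl, κ, Lm), l₀, s)`; `m j` bounds the size of the
level `j` and `x j` that of its list `K`. -/
def REBUILD : Prop :=
  ∃ (reb : (ℕ × ℕ × ℕ × ℕ × ℕ × ℕ × ℕ) × ℕ × St → M (List ℕ × St)) (c : ℕ), Impl reb ∧ 1 ≤ c ∧
    ∀ (B e b d q k kl κ Lm M l₀ : ℕ) (m x cost : ℕ → ℕ) (s : St),
      SI (parOf c b d k kl κ Lm M) s (Lm + 1) → 1 ≤ l₀ → l₀ ≤ Lm →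
      (s.L (l₀ - 1)).K.length + (s.pend (l₀ - 1)).length ≤ m l₀ →
      (∀ j ≤ Lm, l₀ ≤ j → m j ≤ 2 ^ b ∧ (s.L j).P.length ≤ cost j ∧
        q * (parOf c b d k kl κ Lm M).p j * (m j + 1) ≤ cost j) →
      (∀ j < Lm, l₀ ≤ j → ((b + 2) ^ (c * d) * m j) ^ 2 ≤ k * x j ^ 2 ∧ x j ≤ m (j + 1)) →
      4 * m Lm < kl → 1 ≤ k → k ≤ kl → kl ≤ 2 ^ b → k ^ Lm * M ≤ 2 ^ b → κ ≤ 2 ^ b →
      1 ≤ d → d ≤ b → (b + 2) ^ d ≤ 2 ^ b → 2 ^ b ≤ q ^ d → 1 ≤ q → q ≤ 2 ^ b → e ≤ b → Lm ≤ b →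
      s.nx + 40 * ∑ j ∈ Icc l₀ Lm, cost j ≤ 2 ^ b → 2 ^ (c * (b + 1)) ≤ B →
      Vt e B (reb ((b, d, q, k, kl, κ, Lm), l₀, s)) fun o t =>
        RbRes (parOf c b d k kl κ Lm M) l₀ x cost s o.2 o.1 t

/-- The credit for discarding candidates. -/
def cdC (π : Par) (s : St) : ℕ := 8 * (π.p π.Lm + 1) * ∑ j ∈ range (π.Lm + 1), (s.rem j).length

/-- **The block CAND**: the search for a valid candidate (with its length). -/
def CAND : Prop :=
  ∃ cand : ℕ × St → M (Option (SW × ℕ) × St), Impl cand ∧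
    ∀ (c : Cx) (π : Par) (s : St) (Γ N : ℕ), π.OK → SI π s π.Lm → π.p π.Lm ≤ Γ →
      π.p π.Lm * π.M (π.Lm + 1) ≤ N → N + π.Lm + 2 ≤ c.B → Tri c (cand (π.Lm, s)) fun o t =>
        SI π o.2 π.Lm ∧ o.2.1 = s.1 ∧ o.2.2.1 = s.2.1 ∧
        (∀ j, o.2.L j = s.L j ∧ o.2.pend j = s.pend j ∧ (o.2.rem j).length ≤ (s.rem j).length) ∧
        t + cdC π o.2 ≤ cdC π s + 8 * (π.p π.Lm + π.Lm + 2) ∧
        o.1.elim (∀ G, RI s G → G.Central (π.γ ^ (π.Lm + 1) * π.κ))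
          fun p => s.view.Cand π.κ Γ N p.1 p.2

end Vale.Agent.P305Y
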