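import Vale.Agent.P305Y.Cand

/-!
# How events and reconstructions act on the view of the state
-/

namespace Vale.Agent.P305Y

open Vale.Agent.P305E Vale.Agent.P305C Vale.Agent.P305M Vale.Agent.P305Q Finset

variable {π : Par} {s s' : St} {G : Gh} {top : ℕ}

theorem view_ok_iff (z : ℕ) : s.view.ok z ↔ z < s.nx ∧ ¬ s.bad z := by simp [GS.ok, St.view]

theorem RI.push (h : RI s G) (d : ℕ → ℤ) : RI s (G.push d) := ⟨h.real, h.uniq, h.surj⟩

theorem RI.congr (h : RI s G) (e1 : s'.1 = s.1) (e2 : s'.2.1 = s.2.1) : RI s' G := by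
  constructor
  · simpa only [St.nx, St.bad, St.re, St.it, e1, e2] using h.real
  · simpa only [St.nx, St.bad, St.re, St.it, e1, e2] using h.uniq
  · simpa only [St.nx, St.bad, St.re, St.it, e1, e2] using h.surj

theorem view_congr (e1 : s'.1 = s.1) (e2 : s'.2.1 = s.2.1) : s'.view = s.view := by
  simp only [St.view, St.nx, St.re, St.it, St.cs, St.dep, e1, e2]

theorem ext_trans {S S' S'' : GS} {L L' : List ℕ} (h : S.Ext S' L) (h' : S'.Ext S'' L') :
    S.Ext S'' (L ++ L') := by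
  have lt : ∀ z < S.n, z < S'.n := fun z hz => hz.trans_le h.n
  refine ⟨h.n.trans h'.n, fun z hz => (h'.cs z (lt z hz)).trans (h.cs z hz),
    fun z hz => (h'.re z (lt z hz)).trans (h.re z hz),
    fun z hz => (h'.len z (lt z hz)).trans (h.len z hz),
    fun z hz => (h'.dep z (lt z hz)).trans (h.dep z hz),
    fun z hz hb => h'.bad z (lt z hz) (h.bad z hz hb), fun z hz => ?_, fun z hz => ?_⟩
  · rcases h.new z hz with a | a
    · exact (h'.new z a).imp_right fun b => by simp [b]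
    · simp [a]
  · rcases List.mem_append.1 hz with a | a
    · exact ⟨(h.mem z a).1.trans_le h'.n, h'.bad z (h.mem z a).1 (h.mem z a).2⟩
    · exact h'.mem z a

/-- The removal of the real item `z`. -/
theorem view_kill {z e : ℕ} {L : List ℕ} (h : RI s G) (hs : SI π s' top) (hz : z < s.nx)
    (hb : ¬ s.bad z) (he : s.re z = some e) (e1 : s'.1 = s.1) (e2 : s'.2.1.2 = s.2.1.2)
    (e3 : ∀ y, s'.bad y ↔ s.bad y ∨ y ∈ L) (e4 : z ∈ L) (e5 : ∀ y ∈ L, s.re y = none ∨ y = z) :
    RI s' (G.del e) ∧ s.view.Ext s'.view L ∧ s'.re = s.re := by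
  have a1 : s'.nx = s.nx := by simp only [St.nx, e1]
  have a2 : s'.re = s.re := by simp only [St.re, e2]
  have a3 : s'.it = s.it := by simp only [St.it, e1]
  refine ⟨⟨?_, ?_, ?_⟩, ⟨a1.ge, ?_, ?_, ?_, ?_, fun y _ hy => (e3 y).2 (Or.inl hy), fun y hy => ?_,
    fun y hy => ⟨hs.badlt y ((e3 y).2 (Or.inr hy)), (e3 y).2 (Or.inr hy)⟩⟩, a2⟩
  · simp only [a1, a2, a3, e3, not_or, Gh.del, mem_erase]
    refine fun y hy a e' b => ⟨⟨?_, (h.real y hy a.1 e' b).1⟩, (h.real y hy a.1 e' b).2⟩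
    rintro rfl
    exact a.2 (h.uniq y hy z hz _ a.1 hb b he ▸ e4)
  · simp only [a1, a2, e3, not_or]
    exact fun y hy y' hy' e' a b => h.uniq y hy y' hy' e' a.1 b.1
  · simp only [a1, a2, e3, not_or, Gh.del, mem_erase]
    rintro e' ⟨b1, b2⟩
    obtain ⟨y, c1, c2, c3⟩ := h.surj e' b2
    refine ⟨y, c1, ⟨c2, fun q => ?_⟩, c3⟩
    rcases e5 y q with q | rfl
    · simp [q] at c3
    · exact b1 (Option.some.inj (c3.symm.trans he))
  · simp [St.view, St.cs, e1]
  · simp [St.view, a2]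
  · simp [St.view, a3]
  · simp [St.view, St.dep, e2]
  · rw [view_ok_iff] at hy
    rw [view_ok_iff, a1, e3]
    tauto

/-- A new real item. -/
theorem view_add {e : ℕ} {a : RA} (h : RI s G) (hs : SI π s top) (he : e ∉ G.al)
    (e1 : s'.1 = (s.1.1.set s.nx a, s.1.2.1.set s.nx [], s.nx + 1))
    (e2 : s'.2.1 = (s.2.1.1, s.2.1.2.1.set s.nx 0, s.2.1.2.2.set s.nx (some e))) :
    RI s' (G.ins e a) ∧ s.view.Ext s'.view [] := by
  have a1 : s'.nx = s.nx + 1 := by simp only [St.nx, e1]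
  have a2 : ∀ y, s'.re y = if y = s.nx then some e else s.re y := fun y => by
    simp only [St.re, e2, Arr.get_set]
  have a3 : ∀ y, s'.it y = if y = s.nx then a else s.it y := fun y => by
    simp only [St.it, e1, Arr.get_set]
  have a4 : ∀ y, s'.bad y ↔ s.bad y := fun y => by simp only [St.bad, e2]
  have ne : ∀ y < s.nx, ¬ s.bad y → s.re y ≠ some e := fun y hy hb q => he (h.real y hy hb e q).1
  refine ⟨⟨fun y hy hb e' => ?_, fun y hy y' hy' e' hb hb' => ?_, fun e' he' => ?_⟩,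
    ⟨by simp [St.view, a1], fun y hy => ?_, fun y hy => ?_, fun y hy => ?_, fun y hy => ?_,
      fun y _ hy => (a4 y).2 hy, fun y hy => ?_, by simp⟩⟩
  · rw [a2, a3]
    rw [a4] at hb
    split_ifs with q
    · rintro ⟨rfl⟩
      simp [Gh.ins]
    · intro b
      have c := h.real y (by omega) hb e' b
      have : e' ≠ e := fun q => he (q ▸ c.1)
      simp [Gh.ins, this, c.1, c.2]
  · rw [a2, a2]
    rw [a4] at hb hb'
    split_ifs with q q' q'
    · exact fun _ _ => q.trans q'.symm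
    · rintro ⟨rfl⟩ b
      exact (ne y' (by omega) hb' b).elim
    · rintro b ⟨rfl⟩
      exact (ne y (by omega) hb b).elim
    · exact h.uniq y (by omega) y' (by omega) e' hb hb'
  · rcases mem_insert.1 he' with rfl | b
    · exact ⟨s.nx, by omega, fun q => (hs.badlt _ ((a4 _).1 q)).false, by simp [a2]⟩
    · obtain ⟨y, c1, c2, c3⟩ := h.surj e' b
      exact ⟨y, by omega, by rwa [a4], by rw [a2, if_neg c1.ne, c3]⟩
  · simp [St.view, St.cs, e1, (show y < s.nx from hy).ne]
  · simp [St.view, a2, (show y < s.nx from hy).ne]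
  · simp [St.view, a3, (show y < s.nx from hy).ne]
  · simp [St.view, St.dep, e2, (show y < s.nx from hy).ne]
  · rw [view_ok_iff] at hy
    rw [view_ok_iff, a1, a4]
    exact Or.inl ⟨by omega, hy.2⟩

/-- A reconstruction. -/
theorem view_reb {l₀ t : ℕ} {x cost : ℕ → ℕ} {D : List ℕ} (h : RI s G) (hs : SI π s top)
    (r : RbRes π l₀ x cost s s' D t) :
    RI s' G ∧ s.view.Ext s'.view D ∧ ∀ y ∈ D, s'.re y = none := by
  have lt : ∀ y e, s.re y = some e → y < s.nx := fun y e q => by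
    by_contra c
    simp [hs.fresh y (by omega)] at q
  have nx := r.nx
  refine ⟨⟨fun y _ hb e q => ?_, fun y _ y' _ e hb hb' q q' => ?_, fun e he => ?_⟩,
    ⟨r.nx, fun y hy => (r.old y hy).2.1, fun y _ => congrFun r.re y,
      fun y hy => congrArg (·.2.2.1) (r.old y hy).1, fun y hy => (r.old y hy).2.2,
      fun y _ hy => (r.bad y).2 (Or.inl hy), fun y hy => ?_,
      fun y hy => ⟨(r.virt y hy).1.trans_le r.nx, (r.bad y).2 (Or.inr hy)⟩⟩,
    fun y hy => r.re ▸ (r.virt y hy).2⟩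
  · rw [r.re] at q
    rw [(r.old y (lt y e q)).1]
    exact h.real y (lt y e q) (fun c => hb ((r.bad y).2 (Or.inl c))) e q
  · rw [r.re] at q q'
    exact h.uniq y (lt y e q) y' (lt y' e q') e (fun c => hb ((r.bad y).2 (Or.inl c)))
      (fun c => hb' ((r.bad y').2 (Or.inl c))) q q'
  · obtain ⟨y, c1, c2, c3⟩ := h.surj e he
    refine ⟨y, by omega, fun q => ((r.bad y).1 q).elim c2 fun q => ?_, r.re ▸ c3⟩
    simp [(r.virt y q).2] at c3
  · rw [view_ok_iff] at hy
    rw [view_ok_iff, r.bad]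
    by_cases q : y ∈ D
    · exact Or.inr q
    · exact Or.inl ⟨by omega, by tauto⟩

end Vale.Agent.P305Y
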