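import Vale.Agent.P305Y.Stub

/-!
# The search for a candidate; the view of the state
-/

namespace Vale.Agent.P305Y

open Vale.Agent.P305E Vale.Agent.P305C Vale.Agent.P305M Vale.Agent.P305Q Finset

/-- New remaining candidates at the level `j`. -/
def setRem (s : St) (j : ℕ) (r : List SW) : St :=
  (s.1, s.2.1, s.2.2.set j (s.L j, s.G j, (s.2.2.get j).2.2.1, s.pend j, r))

section
variable (s : St) (j i : ℕ) (r : List SW)

theorem setRem_get : (setRem s j r).2.2.get i = (s.L i, s.G i, (s.2.2.get i).2.2.1, s.pend i,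
    if i = j then r else s.rem i) := by
  by_cases h : i = j
  · subst h; simp [setRem]
  · simp [setRem, h]

theorem setRem_L : (setRem s j r).L i = s.L i := by simp only [St.L, setRem_get]
theorem setRem_G : (setRem s j r).G i = s.G i := by simp only [St.G, setRem_get]
theorem setRem_pend : (setRem s j r).pend i = s.pend i := by simp only [St.pend, setRem_get]
theorem setRem_brk (C : ℕ) : (setRem s j r).brk i C ↔ s.brk i C := by
  simp only [St.brk, setRem_get]
theorem setRem_rem : (setRem s j r).rem i = if i = j then r else s.rem i := by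
  simp only [St.rem, setRem_get]
theorem setRem_tch (y : ℕ) : (setRem s j r).tch i y ↔ s.tch i y := by
  simp only [St.tch, setRem_L, setRem_brk]

theorem setRem_trg {π : Par} {top lo : ℕ} {em tl : List ℕ} :
    Trg π (setRem s j r) top lo em tl ↔ Trg π s top lo em tl := by
  simp only [Trg, setRem_G, setRem_pend, setRem_tch]
  rfl
end

theorem SI.setRem {π : Par} {s : St} {top j : ℕ} (h : SI π s top) {w : SW} {r : List SW}
    (e : s.rem j = w :: r) (hw : ∃ c ∈ w, s.bad c.1) : SI π (setRem s j r) top := by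
  refine { h with
    lv := ?_, G := ?_, P := ?_, pend := ?_, virt := ?_, B := ?_, K := ?_, last := ?_,
    Ti := ?_, Tc := ?_, Tr := ?_, rem := fun i hi => ?_ }
  · simp only [setRem_L, setRem_G]
    exact h.lv
  · simp only [setRem_G]
    exact h.G
  · simp only [setRem_L]
    exact h.P
  · simp only [setRem_pend]
    exact h.pend
  · simp only [setRem_L]
    exact h.virt
  · simp only [setRem_L, setRem_G, setRem_tch]
    exact h.B
  · simp only [setRem_L, setRem_G]
    exact h.K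
  · simp only [setRem_L]
    exact h.last
  · simp only [setRem_L, setRem_G, setRem_trg]
    exact h.Ti
  · simp only [setRem_L, setRem_brk, setRem_trg]
    exact h.Tc
  · simp only [setRem_trg]
    exact h.Tr
  · rw [setRem_L, setRem_rem]
    obtain ⟨a, b⟩ := h.rem i hi
    split_ifs with hij
    · subst hij
      rw [e] at a b
      refine ⟨fun w' hw' => a w' (by simp [hw']), fun w' hw' => ?_⟩
      rcases b w' hw' with b | b
      · rcases List.mem_cons.1 b with rfl | b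
        · exact Or.inr hw
        · exact Or.inl b
      · exact Or.inr b
    · exact ⟨a, b⟩

/-- One step of the search. -/
def candStep (p : ℕ × St) : M ((ℕ × St) ⊕ (Option (SW × ℕ) × St)) :=
  caseL (p.2.rem p.1) (if p.1 = 0 then pure (.inr (none, p.2)) else pure (.inl (p.1 - 1, p.2)))
    fun w r => do
      let b ← anyP (fun c => p.2.2.1.1.get c.1) w
      if b = true then pure (.inl (p.1, setRem p.2 p.1 r)) else do
        let n ← sumP (fun c => (p.2.it c.1).2.2.1) w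
        pure (.inr (some (w, n), p.2))

/-- The search. -/
def candP (p : ℕ × St) : M (Option (SW × ℕ) × St) :=
  loopM candStep (p.1 + ∑ j ∈ range (p.1 + 1), (p.2.rem j).length + 1) p

theorem impl_candP : Impl candP := by
  unfold candP candStep setRem St.rem St.it St.L St.G St.pend
  fun_prop

theorem Wlk.dif {it : ℕ → RA} {u v : ℕ} {w : SW} (h : Wlk it u w v) (φ : ℕ → ℤ) :
    ssum (fun z => φ (it z).2.1 - φ (it z).1) w = φ v - φ u := by
  induction w generalizing u with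
  | nil => simp [show u = v from h]
  | cons c w ih =>
    rw [ssum_cons, ih h.2, ← h.1]
    obtain ⟨z, b⟩ := c
    cases b <;> simp [src, dst]

theorem Par.OK.Mmono {π : Par} (h : π.OK) : Monotone π.M :=
  monotone_nat_of_le_succ fun j => by
    rw [h.M]
    exact Nat.le_mul_of_pos_left _ (h.k j).1

theorem nsum_le_mul {v : ℕ → ℕ} {w : SW} {N : ℕ} (h : ∀ c ∈ w, v c.1 ≤ N) :
    nsum v w ≤ w.length * N := by
  induction w with
  | nil => simp
  | cons c w ih =>
    have := h c (by simp)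
    have := ih fun c hc => h c (by simp [hc])
    simp only [nsum_cons, List.length_cons, add_mul]
    omega

theorem SI.lt {π : Par} {s : St} {top j z : ℕ} (h : SI π s top) (hj : j ≤ π.Lm)
    (hz : z ∈ s.G j ∨ z ∈ (s.L j).P) : z < s.nx :=
  hz.elim (fun a => (h.G j hj z a).1) fun a => (h.P j hj z a).1

theorem SI.cand {π : Par} {s : St} {top j Γ N : ℕ} (h : SI π s top) (hπ : π.OK) (hj : j ≤ π.Lm)
    (hΓ : π.p π.Lm ≤ Γ) (hN : π.p π.Lm * π.M (π.Lm + 1) ≤ N) {w : SW} (hw : w ∈ s.rem j)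
    (hv : ∀ c ∈ w, ¬ s.bad c.1) : s.view.Cand π.κ Γ N w (wlen s.it w) := by
  obtain ⟨a1, a2, a3, ⟨u, a4⟩, a5⟩ := (h.lv j hj).cand w ((h.rem j hj).1 w hw)
  have a6 := a2.trans (hπ.pm hj)
  have nm := fun c hc => h.num c.1 (h.lt hj (a3 c hc))
  have bd : ∀ v : ℕ → ℕ, (∀ c ∈ w, v c.1 ≤ π.M (s.dep c.1)) → nsum v w ≤ N := fun v hv =>
    (nsum_le_mul fun c hc => (hv c hc).trans (hπ.Mmono (nm c hc).2.2.2.2.2)).trans
      ((Nat.mul_le_mul_right _ a6).trans hN)
  refine ⟨fun c hc => ⟨h.lt hj (a3 c hc), Bool.eq_false_iff.2 (hv c hc)⟩,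
    fun φ => (a4.dif φ).trans (sub_self _), le_rfl, ?_, bd _ fun c hc => (nm c hc).2.2.2.1, ?_,
    bd _ fun c hc => (nm c hc).2.2.2.2.1, a6.trans hΓ⟩
  · obtain ⟨c, w, rfl⟩ := List.exists_cons_of_ne_nil a1
    have := (nm c (by simp)).2.2.1
    rw [wlen_cons]
    omega
  · change π.κ * wlen s.it w ≤ (wg s.it w).natAbs
    zify
    rw [le_abs]
    right
    linarith

theorem SI.central' {π : Par} {s : St} (h : SI π s π.Lm) (hπ : π.OK)
    (h0 : ∀ j ≤ π.Lm, s.rem j = []) (G : Gh) (hG : RI s G) :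
    G.Central (π.γ ^ (π.Lm + 1) * π.κ) := by
  obtain ⟨φ, hφ⟩ := h.central hπ.γ h0
  refine ⟨φ, fun e he => ?_⟩
  obtain ⟨z, a1, a2, a3⟩ := hG.surj e he
  rw [(hG.real z a1 a2 e a3).2]
  exact hφ z a1 a2 (by simp [a3])

theorem sum_rem_setRem {s : St} {j n : ℕ} (hj : j < n) {w : SW} {r : List SW}
    (e : s.rem j = w :: r) : ∑ i ∈ range n, ((setRem s j r).rem i).length + 1 =
      ∑ i ∈ range n, (s.rem i).length := by
  rw [← add_sum_erase _ _ (mem_range.2 hj), ← add_sum_erase _ _ (mem_range.2 hj), e, setRem_rem,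
    if_pos rfl, sum_congr rfl fun i hi => by rw [setRem_rem, if_neg (mem_erase.1 hi).1]]
  simp only [List.length_cons]
  omega

/-- **The block CAND.** -/
theorem cand : CAND := by
  refine ⟨candP, impl_candP, fun c π s Γ N hπ h hΓ hN hB => ?_⟩
  refine Tri.loopM (fun p t => p.1 ≤ π.Lm ∧ SI π p.2 π.Lm ∧ p.2.1 = s.1 ∧ p.2.2.1 = s.2.1 ∧
      (∀ j, p.2.L j = s.L j ∧ p.2.pend j = s.pend j ∧ (p.2.rem j).length ≤ (s.rem j).length) ∧
      (∀ j ≤ π.Lm, p.1 < j → p.2.rem j = []) ∧ t + cdC π p.2 + p.1 ≤ cdC π s + π.Lm)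
    (fun p => p.1 + ∑ j ∈ range (π.Lm + 1), (p.2.rem j).length) ?_
    ⟨le_rfl, h, rfl, rfl, fun _ => ⟨rfl, rfl, le_rfl⟩, fun j a b => by omega, by simp⟩
    (Nat.lt_succ_self _)
  rintro ⟨n, s'⟩ t ⟨a1, a2, a3, a4, a5, a6, a7⟩
  simp only at a1 a2 a3 a4 a5 a6 a7
  unfold candStep
  cases e : s'.rem n with
  | nil =>
    have a8 : ∀ j ≤ π.Lm, n ≤ j → s'.rem j = [] := fun j hj hn =>
      hn.lt_or_eq.elim (a6 j hj) fun q => q ▸ e
    simp only [caseL_nil, Tri_ite, Tri_pure, Sum.elim_inl, Sum.elim_inr, Option.elim_none]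
    refine ⟨fun h0 => ⟨a2, a3, a4, a5, by omega, fun G hG => a2.central' hπ
      (fun j hj => a8 j hj (by omega)) G ⟨?_, ?_, ?_⟩⟩,
      fun h0 => ⟨⟨by omega, a2, a3, a4, a5, fun j hj hn => a8 j hj (by omega), by omega⟩, by omega⟩⟩
    · simpa only [St.nx, St.bad, St.re, St.it, a3, a4] using hG.real
    · simpa only [St.nx, St.bad, St.re, St.it, a3, a4] using hG.uniq
    · simpa only [St.nx, St.bad, St.re, St.it, a3, a4] using hG.surj
  | cons w r =>
    have hw : w ∈ s'.rem n := by simp [e]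
    have hl := ((a2.lv n a1).cand w ((a2.rem n a1).1 w hw)).2.1.trans (hπ.pm a1)
    simp only [caseL_cons, Tri_bind, Tri_anyP, Tri_ite, Tri_pure, Tri_sumP, Sum.elim_inl,
      Sum.elim_inr, Option.elim_some, List.any_eq_true]
    refine ⟨fun hb => ?_, fun hb => ?_⟩
    · have q := sum_rem_setRem (show n < π.Lm + 1 by omega) e
      refine ⟨⟨a1, a2.setRem e hb, a3, a4, fun j => ?_, fun j hj hn => ?_, ?_⟩, by omega⟩
      · rw [setRem_L, setRem_pend, setRem_rem]
        refine ⟨(a5 j).1, (a5 j).2.1, le_trans ?_ (a5 j).2.2⟩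
        split_ifs with hj
        · simp [hj, e]
        · rfl
      · rw [setRem_rem, if_neg (by omega)]
        exact a6 j hj hn
      · unfold cdC at a7 ⊢
        rw [← q, mul_add] at a7
        omega
    · have q := a2.cand hπ a1 hΓ hN hw fun c hc hb' => hb ⟨c, hc, hb'⟩
      have e' : s'.view = s.view := by
        simp only [St.view, St.nx, St.re, St.it, St.cs, St.dep, a3, a4]
      exact ⟨q.le.trans (by omega), a2, a3, a4, a5, by omega, e' ▸ q⟩

/-! ### The initial state, the parameters, the view -/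

theorem si0 (π : Par) (top : ℕ) : SI π st0 top := by
  refine ⟨fun j _ => lvl0_at _ _ _ _ _ _, ?_, ?_, ?_, ?_, ?_, ?_, ?_, ?_, ?_, ?_, ?_, ?_, rfl, ?_, ?_,
    ?_, ?_⟩ <;>
  simp [st0, lvl0, Dag, St.G, St.L, St.pend, St.nx, St.bad, St.re, St.brk, St.rem, Lvl.P, Lvl.K,
    Lvl.cand]

theorem ri0 : RI st0 Gh.empty := by
  constructor <;> simp [st0, St.nx, Gh.empty]

theorem parOf_ok {c b d k kl κ Lm M : ℕ} (hc : 1 ≤ c) (hd : 1 ≤ d) (hk : 1 ≤ k) (hl : k ≤ kl) :
    (parOf c b d k kl κ Lm M).OK := by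
  have h1 : ∀ j, 1 ≤ if j < Lm then k else kl := fun j => by split_ifs <;> omega
  refine ⟨Nat.one_le_pow _ _ (by omega), Nat.one_le_pow _ _ (Nat.mul_pos (by omega) (h1 0)),
    fun i j hij => Nat.pow_le_pow_left (Nat.mul_le_mul_left _ ?_) _, fun j => ⟨h1 j, ?_⟩,
    fun j => rfl⟩
  · split_ifs <;> omega
  · exact (Nat.le_mul_of_pos_left _ (by omega)).trans
      (Nat.le_self_pow (Nat.mul_pos hc hd).ne' _)

theorem parOf_M {c b d k kl κ Lm M j : ℕ} (hj : j ≤ Lm) :
    (parOf c b d k kl κ Lm M).M j = k ^ j * M := by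
  induction j with
  | zero => simp [parOf, mM]
  | succ j ih =>
    have := ih (by omega)
    simp only [parOf, mM] at this ⊢
    rw [this, if_pos (by omega), pow_succ]
    ring

theorem parOf_M' {c b d k kl κ Lm M : ℕ} :
    (parOf c b d k kl κ Lm M).M (Lm + 1) = kl * (k ^ Lm * M) := by
  rw [← parOf_M (c := c) (b := b) (d := d) (kl := kl) (κ := κ) le_rfl]
  simp [parOf, mM]

/-- The view satisfies the interface of the core. -/
theorem SI.view_ok {π : Par} {s : St} {top Γ N : ℕ} {G : Gh} (h : SI π s top) (hπ : π.OK)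
    (hG : RI s G) (h1 : s.nx ≤ N) (h2 : π.M (π.Lm + 1) ≤ N) (h3 : π.p π.Lm ≤ Γ)
    (h4 : π.Lm + 2 ≤ Γ) (h5 : ((π.Lm + 1) * π.γ + 1) ^ (π.Lm + 1) ≤ Γ) : s.view.OK G Γ N := by
  have ok : ∀ z, s.view.ok z ↔ z < s.nx ∧ ¬ s.bad z := fun z => by simp [GS.ok, St.view]
  have vi : ∀ z, s.view.ok z → s.re z = none → Wlk s.it (s.it z).1 (s.cs z) (s.it z).2.1 ∧
      (s.it z).2.2.2 = wg s.it (s.cs z) := fun z hz hr =>
    (h.virt z ((ok z).1 hz).1 ((ok z).1 hz).2 hr).elim fun j hj =>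
      ⟨((h.lv j hj.1).cs z hj.2).2.2.2.1, ((h.lv j hj.1).cs z hj.2).2.2.2.2.2⟩
  have dn : ∀ z, s.view.ok z → ∀ c ∈ s.cs z, s.view.ok c.1 := fun z hz c hc =>
    (ok _).2 ⟨(h.dag z hz.1 c hc).trans hz.1, (h.down hz.1 ((ok z).1 hz).2 hc).1⟩
  refine ⟨h.dag, h1, fun z hz => (h.num z hz).2.2.1, fun z hz => (h.num z hz).2.2.2.1.trans
    ((hπ.Mmono (h.num z hz).2.2.2.2.2).trans h2), fun z hz => (h.all z hz).1,
    fun z hz => (h.all z hz).2.1.trans h3, fun z hz => (h.all z hz).2.2, fun z hz => ?_,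
    fun z hz e he => (h.real z hz (by simp [show s.re z = some e from he])).1, dn,
    fun z hz hr => (vi z hz hr).2, fun z hz hr φ => ((vi z hz hr).1.dif φ).symm,
    fun z hz e he => hG.real z hz.1 ((ok z).1 hz).2 e he,
    fun z z' e hz hz' => hG.uniq z hz.1 z' hz'.1 e ((ok z).1 hz).2 ((ok z').1 hz').2,
    fun e he => ?_, fun e => ?_⟩
  · have := (h.num z hz).2.2.2.2.2
    change s.dep z < Γ
    omega
  · obtain ⟨z, a1, a2, a3⟩ := hG.surj e he
    exact ⟨z, (ok z).2 ⟨a1, a2⟩, a3⟩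
  · obtain ⟨y₀, hy⟩ : ∃ y₀, ∀ y < s.nx, s.view.ok y → s.re y = some e → y = y₀ := by
      by_cases q : ∃ y, s.view.ok y ∧ s.re y = some e
      · obtain ⟨y₀, q1, q2⟩ := q
        exact ⟨y₀, fun y hy a b =>
          hG.uniq y hy y₀ q1.1 e ((ok y).1 a).2 ((ok y₀).1 q1).2 b q2⟩
      · exact ⟨0, fun y _ a b => (q ⟨y, a, b⟩).elim⟩
    refine le_trans (card_le_card fun y hy => ?_) ((card_anc (ok := s.view.ok) (re := s.re) h.dag
      s.dep (fun z => (range (π.Lm + 1)).biUnion fun j => ((s.L j).par z).toFinset)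
      ((π.Lm + 1) * π.γ) e y₀ (fun y hy a c hc => ?_) (fun y _ _ => ?_) hy (π.Lm + 1)).trans h5)
    · simp only [mem_filter, mem_range] at hy ⊢
      exact ⟨hy.1, hy.2.1, (h.num y hy.1).2.2.2.2.2, hy.2.2⟩
    · obtain ⟨-, b2, j, b3, b4⟩ := h.down hy ((ok y).1 a).2 hc
      exact ⟨dn y a c hc, b2, mem_biUnion.2 ⟨j, mem_range.2 (by omega), List.mem_toFinset.2 b4⟩⟩
    · simpa using card_biUnion_le_card_mul (range (π.Lm + 1))
        (fun j => ((s.L j).par y).toFinset) π.γ fun j hj => (List.toFinset_card_le _).trans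
          ((h.lv j (Nat.le_of_lt_succ (mem_range.1 hj))).par y).1

end Vale.Agent.P305Y
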