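import Vale.Agent.P305Y.Defs

/-!
# The levels of the engine in time: state, invariant, centrality
-/

namespace Vale.Agent.P305Y

open Vale.Agent.P305E Vale.Agent.P305C Vale.Agent.P305M Vale.Agent.P305Q

/-- What remains true about a level when the store grows. -/
structure LvlAt (it : ℕ → RA) (cs : ℕ → SW) (G : List ℕ) (L : Lvl) (κ k γ p : ℕ) : Prop where
  nodup : L.P.Nodup
  cs : ∀ z ∈ L.P, (∀ c ∈ cs z, c.1 ∈ G ∧ z ∈ L.par c.1) ∧ cs z ≠ [] ∧ (cs z).length ≤ k ∧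
    Wlk it (it z).1 (cs z) (it z).2.1 ∧ (it z).2.2.1 = wlen it (cs z) ∧ (it z).2.2.2 = wg it (cs z)
  par : ∀ z, (L.par z).length ≤ γ ∧ ∀ y ∈ L.par z, y ∈ L.P
  K : ∀ z ∈ L.K, z ∈ G ∨ z ∈ L.P
  em : ∀ z, (L.em z).length ≤ p ∧ ∀ y ∈ L.em z, y ∈ G ∨ y ∈ L.P
  cem : ∀ C, (L.cem C).length ≤ p ∧ ∀ y ∈ L.cem C, y ∈ G ∨ y ∈ L.P
  tl : ∀ z, (L.tl z).length ≤ γ
  ctl : ∀ C, (L.ctl C).length ≤ γ
  cls : ∀ u, (L.cls u).length ≤ γ
  cand : ∀ w ∈ L.cand, w ≠ [] ∧ w.length ≤ p ∧ (∀ c ∈ w, c.1 ∈ G ∨ c.1 ∈ L.P) ∧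
    (∃ u, Wlk it u w u) ∧ wg it w + κ * wlen it w ≤ 0
  sound : Sound it G L κ γ

theorem wlen_congr {it it' : ℕ → RA} {w : SW} (e : ∀ c ∈ w, it' c.1 = it c.1) :
    wlen it' w = wlen it w := by
  induction w with
  | nil => rfl
  | cons c w ih => simp [e c (by simp), ih fun c hc => e c (by simp [hc])]

theorem wg_congr {it it' : ℕ → RA} {w : SW} (e : ∀ c ∈ w, it' c.1 = it c.1) :
    wg it' w = wg it w := ssum_congr fun c hc => by rw [e c hc]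

theorem con_congr {it it' : ℕ → RA} {z : ℕ} (e : it' z = it z) {φ : ℕ → ℝ} {K : ℝ} :
    Con it' φ K z ↔ Con it φ K z := by rw [Con, Con, e]

theorem Con.mono {it : ℕ → RA} {z : ℕ} {φ : ℕ → ℝ} {K K' : ℝ} (h : Con it φ K z) (hK : K ≤ K') :
    Con it φ K' z := le_trans h (mul_le_mul_of_nonneg_right hK (Nat.cast_nonneg _))

theorem LvlAt.congr {it it' : ℕ → RA} {cs cs' : ℕ → SW} {G : List ℕ} {L : Lvl} {κ k γ p : ℕ}
    (h : LvlAt it cs G L κ k γ p) (e : ∀ z, z ∈ G ∨ z ∈ L.P → it' z = it z)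
    (e' : ∀ z ∈ L.P, cs' z = cs z) : LvlAt it' cs' G L κ k γ p := by
  refine { h with cs := fun z hz => ?_, cand := fun w hw => ?_, sound := ?_ }
  · obtain ⟨a1, a2, a3, a4, a5, a6⟩ := h.cs z hz
    have a : ∀ c ∈ cs z, it' c.1 = it c.1 := fun c hc => e _ (Or.inl (a1 c hc).1)
    rw [e' z hz, e z (Or.inr hz), wlen_congr a, wg_congr a]
    exact ⟨a1, a2, a3, a4.congr a, a5, a6⟩
  · obtain ⟨a1, a2, a3, ⟨u, a4⟩, a5⟩ := h.cand w hw
    have a : ∀ c ∈ w, it' c.1 = it c.1 := fun c hc => e _ (a3 c hc)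
    rw [wlen_congr a, wg_congr a]
    exact ⟨a1, a2, a3, ⟨u, a4.congr a⟩, a5⟩
  · intro bad brk φ' ψ K h1 h2 h3 h4 h5 h6
    have ab : ∀ em tl : List ℕ, (∀ y ∈ em, y ∈ G ∨ y ∈ L.P) → Abs it' bad φ' ψ K em tl →
        Abs it bad φ' ψ K em tl := fun em tl a ⟨l, b1, b2⟩ =>
      ⟨l, fun z hz hb => (con_congr (e z (a z hz))).1 (b1 z hz hb), b2⟩
    obtain ⟨φ, b1, b2⟩ := h.sound bad brk φ' ψ K h1
      (fun z hz hb => by rw [← e z (Or.inl hz)]; exact h2 z hz hb)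
      (fun z hz hb => (con_congr (e z (h.K z hz))).1 (h3 z hz hb))
      (fun z hz hb => ab _ _ (h.em z).2 (h4 z hz hb)) (fun C hC => ab _ _ (h.cem C).2 (h5 C hC)) h6
    exact ⟨φ, fun z hz hb => (con_congr (e z (Or.inl hz))).2 (b1 z hz hb), b2⟩

theorem LvlOK.at {S S' : Sto} {G : List ℕ} {L : Lvl} {κ k γ p : ℕ} (h : LvlOK S S' G L κ k γ p)
    (hG : ∀ z ∈ G, z < S.2.2) : LvlAt S'.1.get S'.2.1.get G L κ k γ p := by
  refine { h with cs := fun z hz => ?_ }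
  obtain ⟨a1, a2, a3, a4, a5, a6⟩ := h.cs z hz
  have a : ∀ c ∈ S'.2.1.get z, S'.1.get c.1 = S.1.get c.1 :=
    fun c hc => (h.old _ (hG _ (a1 c hc).1)).1
  rw [wlen_congr a, wg_congr a]
  exact ⟨a1, a2, a3, a4.congr a, a5, a6⟩

/-- The empty level. -/
def lvl0 : Lvl := (([], []), (Arr.const [], Arr.const [], Arr.const []),
  (Arr.const [], Arr.const [], Arr.const []), [])

theorem lvl0_at (it : ℕ → RA) (cs : ℕ → SW) (κ k γ p : ℕ) : LvlAt it cs [] lvl0 κ k γ p := by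
  refine ⟨?_, ?_, ?_, ?_, ?_, ?_, ?_, ?_, ?_, ?_, fun _ _ φ' _ _ _ _ _ _ _ _ =>
    ⟨φ', by simp, fun _ _ => rfl⟩⟩ <;>
  simp [lvl0, Lvl.P, Lvl.K, Lvl.em, Lvl.tl, Lvl.par, Lvl.cls, Lvl.cem, Lvl.ctl, Lvl.cand]

/-- A level in time: static part, items, broken clusters, pending items, remaining candidates. -/
abbrev Lv : Type := Lvl × List ℕ × Arr Bool × List ℕ × List SW

/-- The state: store; bad items, depths, tags of the real items; levels. -/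
abbrev St : Type := Sto × (Arr Bool × Arr ℕ × Arr (Option ℕ)) × Arr Lv

namespace St
variable (s : St)
/-- The data of an item. -/
abbrev it : ℕ → RA := s.1.1.get
/-- The constituents of an item. -/
abbrev cs : ℕ → SW := s.1.2.1.get
/-- The first free name. -/
abbrev nx : ℕ := s.1.2.2
/-- The item is bad (or destroyed). -/
abbrev bad (z : ℕ) : Prop := s.2.1.1.get z = true
/-- The depth: `0` for real items, `j + 1` for the items created at the level `j`. -/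
abbrev dep : ℕ → ℕ := s.2.1.2.1.get
/-- The tag of a real item. -/
abbrev re : ℕ → Option ℕ := s.2.1.2.2.get
/-- The static part of a level. -/
abbrev L (j : ℕ) : Lvl := (s.2.2.get j).1
/-- The items on which the level was built. -/
abbrev G (j : ℕ) : List ℕ := (s.2.2.get j).2.1
/-- Broken clusters. -/
abbrev brk (j C : ℕ) : Prop := (s.2.2.get j).2.2.1.get C = true
/-- The items that wait for the next construction of the level `j + 1`. -/
abbrev pend (j : ℕ) : List ℕ := (s.2.2.get j).2.2.2.1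
/-- The candidates that have not been discarded. -/
abbrev rem (j : ℕ) : List SW := (s.2.2.get j).2.2.2.2
/-- The vertex is touched at the level `j`. -/
def tch (j y : ℕ) : Prop := ∀ C ∈ (s.L j).cls y, s.brk j C
end St

/-- The parameters: the levels are `0, …, Lm`; `M j` bounds the numbers at depth `j`. -/
structure Par where
  Lm : ℕ
  κ : ℕ
  γ : ℕ
  k : ℕ → ℕ
  p : ℕ → ℕ
  M : ℕ → ℕ

/-- The parameters are sane. -/
structure Par.OK (π : Par) : Prop where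
  γ : 1 ≤ π.γ
  p : 1 ≤ π.p 0
  pm : Monotone π.p
  k : ∀ j, 1 ≤ π.k j ∧ π.k j ≤ π.p j
  M : ∀ j, π.M (j + 1) = π.k j * π.M j

/-- A trigger with the lists `em`, `tl` that concerns the levels from `lo` on is taken care of at
a level `l ≤ top`. -/
def Trg (π : Par) (s : St) (top lo : ℕ) (em tl : List ℕ) : Prop :=
  ∃ l, lo ≤ l ∧ l ≤ top ∧ (l ≤ π.Lm → ∀ z ∈ em, ¬ s.bad z → z ∈ s.G l) ∧
    (∀ j < l, lo ≤ j + 1 → j ≤ π.Lm → ∀ z ∈ em, ¬ s.bad z → z ∈ s.pend j) ∧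
    ∀ j < l, lo ≤ j → ∀ y ∈ tl, s.tch j y

/-- The invariant; `top = Lm + 1` after an event, `top = Lm` after a reconstruction. -/
structure SI (π : Par) (s : St) (top : ℕ) : Prop where
  lv : ∀ j ≤ π.Lm, LvlAt s.it s.cs (s.G j) (s.L j) π.κ (π.k j) π.γ (π.p j)
  G : ∀ j ≤ π.Lm, ∀ z ∈ s.G j, z < s.nx ∧ s.dep z ≤ j
  P : ∀ j ≤ π.Lm, ∀ z ∈ (s.L j).P, z < s.nx ∧ s.dep z = j + 1 ∧ s.re z = none
  pend : ∀ j ≤ π.Lm, ∀ z ∈ s.pend j, z < s.nx ∧ s.dep z ≤ j + 1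
  dag : Dag s.cs s.nx
  all : ∀ z < s.nx, wlen s.it (s.cs z) ≤ (s.it z).2.2.1 ∧ (s.cs z).length ≤ π.p π.Lm ∧
    ∀ c ∈ s.cs z, s.dep c.1 < s.dep z
  badlt : ∀ z, s.bad z → z < s.nx
  virt : ∀ z < s.nx, ¬ s.bad z → s.re z = none → ∃ j ≤ π.Lm, z ∈ (s.L j).P
  real : ∀ z < s.nx, s.re z ≠ none → s.cs z = [] ∧ s.dep z = 0
  fresh : ∀ z, s.nx ≤ z → s.re z = none
  num : ∀ z < s.nx, (s.it z).1 ≤ π.M 0 ∧ (s.it z).2.1 ≤ π.M 0 ∧ 1 ≤ (s.it z).2.2.1 ∧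
    (s.it z).2.2.1 ≤ π.M (s.dep z) ∧ (s.it z).2.2.2.natAbs ≤ π.M (s.dep z) ∧ s.dep z ≤ π.Lm + 1
  B : ∀ j ≤ π.Lm, ∀ z ∈ s.G j, s.bad z → s.tch j (s.it z).1 ∧ s.tch j (s.it z).2.1 ∧
    ∀ y ∈ (s.L j).par z, s.bad y
  K : ∀ j < π.Lm, ∀ z ∈ (s.L j).K, ¬ s.bad z → z ∈ s.G (j + 1)
  last : (s.L π.Lm).K = []
  Ti : ∀ j ≤ π.Lm, ∀ z, z ∈ s.G j ∨ z ∈ (s.L j).P → s.bad z →
    Trg π s top (j + 1) ((s.L j).em z) ((s.L j).tl z)
  Tc : ∀ j ≤ π.Lm, ∀ C, s.brk j C → Trg π s top (j + 1) ((s.L j).cem C) ((s.L j).ctl C)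
  Tr : ∀ z < s.nx, ¬ s.bad z → s.re z ≠ none → Trg π s top 0 [z] [(s.it z).1, (s.it z).2.1]
  rem : ∀ j ≤ π.Lm, (∀ w ∈ s.rem j, w ∈ (s.L j).cand) ∧
    ∀ w ∈ (s.L j).cand, w ∈ s.rem j ∨ ∃ c ∈ w, s.bad c.1

theorem Trg.up {π : Par} {s : St} {top top' lo : ℕ} {em tl : List ℕ} (h : Trg π s top lo em tl)
    (ht : top ≤ top') : Trg π s top' lo em tl :=
  let ⟨l, a, b, c⟩ := h
  ⟨l, a, b.trans ht, c⟩

theorem SI.up {π : Par} {s : St} {top top' : ℕ} (h : SI π s top) (ht : top ≤ top') :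
    SI π s top' :=
  { h with
    Ti := fun j hj z hz hb => (h.Ti j hj z hz hb).up ht
    Tc := fun j hj C hC => (h.Tc j hj C hC).up ht
    Tr := fun z hz hb hr => (h.Tr z hz hb hr).up ht }

/-- The constituents of a valid item are valid. -/
theorem SI.down {π : Par} {s : St} {top : ℕ} (h : SI π s top) {z : ℕ} (hz : z < s.nx)
    (hb : ¬ s.bad z) {c : ℕ × Bool} (hc : c ∈ s.cs z) : ¬ s.bad c.1 ∧ s.dep c.1 < s.dep z ∧
      ∃ j ≤ π.Lm, z ∈ (s.L j).par c.1 := by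
  by_cases hr : s.re z = none
  · obtain ⟨j, hj, hP⟩ := h.virt z hz hb hr
    obtain ⟨a1, a2⟩ := ((h.lv j hj).cs z hP).1 c hc
    refine ⟨fun hbc => hb ((h.B j hj _ a1 hbc).2.2 z a2), ?_, j, hj, a2⟩
    have := (h.G j hj _ a1).2
    have := (h.P j hj z hP).2.1
    omega
  · rw [(h.real z hz hr).1] at hc
    simp at hc

/-- **Centrality**: after a reconstruction, if no candidate is left. -/
theorem SI.central {π : Par} {s : St} (h : SI π s π.Lm) (hγ : 1 ≤ π.γ)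
    (h0 : ∀ j ≤ π.Lm, s.rem j = []) : ∃ φ : ℕ → ℝ, ∀ z < s.nx, ¬ s.bad z → s.re z ≠ none →
      Con s.it φ ((π.γ ^ (π.Lm + 1) * π.κ : ℕ) : ℝ) z := by
  have mono : ∀ {a b : ℕ}, a ≤ b → ((π.γ ^ a * π.κ : ℕ) : ℝ) ≤ (π.γ ^ b * π.κ : ℕ) :=
    fun hab => Nat.cast_le.2 (Nat.mul_le_mul_right _ (Nat.pow_le_pow_right hγ hab))
  have tr : ∀ (i : ℕ) (Φ : ℕ → ℕ → ℝ), (∀ j ≤ π.Lm, i ≤ j → ∀ u, s.tch j u → Φ j u = Φ (j + 1) u) →
      ∀ l ≤ π.Lm, ∀ y, (∀ j < l, i ≤ j → s.tch j y) → ∀ j ≤ l, Φ (max j i) y = Φ i y := by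
    intro i Φ hΦ l hl y hy j hj
    induction j with
    | zero => simp
    | succ j ih =>
      rcases Nat.lt_or_ge j i with a | a
      · rw [max_eq_right a]
      · rw [max_eq_left (by omega), ← hΦ j (by omega) a y (hy j (by omega) a), ← ih (by omega),
          max_eq_left a]
  have key : ∀ n ≤ π.Lm + 1, ∃ Φ : ℕ → ℕ → ℝ, ∀ j ≤ π.Lm, π.Lm + 1 - n ≤ j →
      (∀ z ∈ s.G j, ¬ s.bad z → Con s.it (Φ j) ((π.γ ^ (π.Lm + 1 - j) * π.κ : ℕ) : ℝ) z) ∧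
        ∀ u, s.tch j u → Φ j u = Φ (j + 1) u := by
    intro n hn
    induction n with
    | zero => exact ⟨fun _ _ => 0, fun j a b => by omega⟩
    | succ n ih =>
      obtain ⟨Φ, hΦ⟩ := ih (by omega)
      obtain ⟨i, hi⟩ : ∃ i, π.Lm = i + n := ⟨π.Lm - n, by omega⟩
      have e1 : π.Lm + 1 - n = i + 1 := by omega
      rw [e1] at hΦ
      have ab : ∀ em tl, Trg π s π.Lm (i + 1) em tl → Abs s.it s.bad (Φ (i + 1))
          (fun j => Φ (max j (i + 1))) ((π.γ ^ n * π.κ : ℕ) : ℝ) em tl := by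
        rintro em tl ⟨l, a1, a2, a3, -, a5⟩
        refine ⟨l, fun z hz hb => ?_, fun j hj y hy => tr (i + 1) Φ
          (fun j a b => (hΦ j a b).2) l a2 y (fun j a b => a5 j a b y hy) j hj⟩
        simp only [max_eq_left a1]
        exact ((hΦ l a2 a1).1 z (a3 a2 z hz hb) hb).mono (mono (by omega))
      have hi' : i ≤ π.Lm := by omega
      obtain ⟨φ, b1, b2⟩ := (h.lv i hi').sound s.bad (s.brk i) (Φ (i + 1)) _ _
        (by simpa using mono (Nat.zero_le n)) (h.B i hi')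
        (fun z hz hb => by
          rcases hi'.lt_or_eq with a | a
          · exact ((hΦ (i + 1) a le_rfl).1 z (h.K i a z hz hb) hb).mono (mono (by omega))
          · rw [a, h.last] at hz
            simp at hz)
        (fun z hz hb => ab _ _ (h.Ti i hi' z hz hb)) (fun C hC => ab _ _ (h.Tc i hi' C hC))
        (fun w hw => ((h.rem i hi').2 w hw).resolve_left (by simp [h0 i hi']))
      refine ⟨Function.update Φ i φ, fun j hj hj' => ?_⟩
      rcases (show i ≤ j by omega).lt_or_eq with a | rfl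
      · rw [Function.update_of_ne a.ne', Function.update_of_ne (by omega)]
        exact hΦ j hj a
      · rw [Function.update_self, Function.update_of_ne (by omega)]
        refine ⟨fun z hz hb => (b1 z hz hb).mono (le_of_eq ?_), b2⟩
        rw [show π.Lm + 1 - i = n + 1 by omega]
        push_cast
        ring
  obtain ⟨Φ, hΦ⟩ := key _ le_rfl
  rw [Nat.sub_self] at hΦ
  refine ⟨Φ 0, fun z hz hb hr => ?_⟩
  obtain ⟨l, -, a2, a3, -, a5⟩ := h.Tr z hz hb hr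
  have a := ((hΦ l a2 (Nat.zero_le _)).1 z (a3 a2 z (by simp) hb) hb).mono
    (mono (Nat.sub_le _ l))
  have b := fun y hy => tr 0 Φ (fun j a b => (hΦ j a b).2) l a2 y
    (fun j a b => a5 j a b y hy) l le_rfl
  simp only [Nat.max_zero] at b
  rwa [Con, b _ (by simp), b _ (by simp)] at a

end Vale.Agent.P305Y
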